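import Vale.Agent.P181.H663.Lead
import Vale.Agent.P181.H583.HWDef

set_option autoImplicit false

open MvPolynomial

namespace Vale.Agent.P181.H663

lemma der_sum_apply {A ι : Type*} [CommRing A] [Algebra ℂ A] (t : Finset ι)
    (D : ι → Derivation ℂ A A) (f : A) : (∑ i ∈ t, D i) f = ∑ i ∈ t, D i f := by
  classical
  induction t using Finset.induction_on with
  | empty => rw [Finset.sum_empty, Finset.sum_empty]; rfl
  | insert i t hi ih => rw [Finset.sum_insert hi, Finset.sum_insert hi, Derivation.add_apply, ih]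

lemma rowOp_eq_T4 {n : ℕ} {σ : Type} [Fintype σ] (s i : Fin n) (f : MvPolynomial (Fin n × σ) ℂ) :
    rowOp s i f = T4.rowOp s i f := by
  classical
  have h : rowOp (K := ℂ) (σ := σ) s i =
      ∑ j : σ, (X (s, j) : MvPolynomial (Fin n × σ) ℂ) •
        (pderiv (i, j) : Derivation ℂ (MvPolynomial (Fin n × σ) ℂ) (MvPolynomial (Fin n × σ) ℂ)) := by
    refine MvPolynomial.derivation_ext fun x => ?_
    obtain ⟨r, j⟩ := x
    rw [rowOp_X, der_sum_apply]
    simp only [Derivation.smul_apply, pderiv_X, smul_eq_mul, Pi.single_apply]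
    by_cases hr : r = i
    · subst hr
      rw [if_pos rfl, Finset.sum_eq_single j]
      · simp
      · intro b _ hb
        simp [Ne.symm hb]
      · simp
    · rw [if_neg hr]
      symm
      refine Finset.sum_eq_zero fun b _ => ?_
      simp [hr]
  rw [h, der_sum_apply, T4.rowOp_apply]
  rfl

lemma HW_eq_T4 {n : ℕ} {σ : Type} [Fintype σ] (lam : Fin n → ℕ) :
    HW ℂ σ lam = T4.HW n σ lam := by
  ext f
  rw [mem_HW, T4.mem_HW, Wt_iff]
  refine and_congr Iff.rfl ?_
  simp only [rowOp_eq_T4]

end Vale.Agent.P181.H663
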