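import Vale.Agent.P181.H663.Row

set_option autoImplicit false

open MvPolynomial

namespace Vale.Agent.P181.H663

variable {K : Type*} [Field K] {n : ℕ} {σ : Type*}

/-- Splitting off the last column. -/
noncomputable def Phi (K : Type*) [Field K] (n : ℕ) (σ : Type*) :
    MvPolynomial (Fin n × Option σ) K →ₐ[K] MvPolynomial (Fin n) (MvPolynomial (Fin n × σ) K) :=
  aeval fun x => match x.2 with
    | none => X x.1
    | some j => C (X (x.1, j))

lemma Phi_X_none (r : Fin n) : Phi K n σ (X (r, none)) = X r := by
  rw [Phi, aeval_X]

lemma Phi_X_some (r : Fin n) (j : σ) : Phi K n σ (X (r, some j)) = C (X (r, j)) := by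
  rw [Phi, aeval_X]

/-- The coefficient of `z^m`, `z` the last column. -/
noncomputable def co (m : Fin n →₀ ℕ) (f : MvPolynomial (Fin n × Option σ) K) :
    MvPolynomial (Fin n × σ) K := coeff m (Phi K n σ f)

lemma co_add (m : Fin n →₀ ℕ) (f g : MvPolynomial (Fin n × Option σ) K) :
    co m (f + g) = co m f + co m g := by
  rw [co, map_add, coeff_add]; rfl

lemma co_zero (m : Fin n →₀ ℕ) : co m (0 : MvPolynomial (Fin n × Option σ) K) = 0 := by
  rw [co, map_zero, coeff_zero]

lemma co_sub (m : Fin n →₀ ℕ) (f g : MvPolynomial (Fin n × Option σ) K) :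
    co m (f - g) = co m f - co m g := by
  rw [co, map_sub, coeff_sub]; rfl

lemma co_smul (m : Fin n →₀ ℕ) (c : K) (f : MvPolynomial (Fin n × Option σ) K) :
    co m (c • f) = c • co m f := by
  rw [co, map_smul, coeff_smul]; rfl

lemma co_sum {ι : Type*} (s : Finset ι) (m : Fin n →₀ ℕ)
    (f : ι → MvPolynomial (Fin n × Option σ) K) :
    co m (∑ i ∈ s, f i) = ∑ i ∈ s, co m (f i) := by
  rw [co, map_sum, coeff_sum]; rfl

lemma co_C (m : Fin n →₀ ℕ) (c : K) :
    co m (C c : MvPolynomial (Fin n × Option σ) K) = if m = 0 then C c else 0 := by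
  classical
  have h : Phi K n σ (C c) = C (C c) := by
    rw [← algebraMap_eq, AlgHom.commutes]; rfl
  rw [co, h, coeff_C]
  simp only [eq_comm]

/-- one step down in the direction `s` -/
noncomputable def dec (m : Fin n →₀ ℕ) (s : Fin n) : Fin n →₀ ℕ := m - Finsupp.single s 1

/-- one step up in the direction `s` -/
noncomputable def inc (m : Fin n →₀ ℕ) (s : Fin n) : Fin n →₀ ℕ := m + Finsupp.single s 1

lemma dec_apply (m : Fin n →₀ ℕ) (s t : Fin n) : dec m s t = if s = t then m t - 1 else m t := by
  rw [dec, Finsupp.tsub_apply, Finsupp.single_apply]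
  split_ifs <;> rfl

lemma inc_apply (m : Fin n →₀ ℕ) (s t : Fin n) : inc m s t = if s = t then m t + 1 else m t := by
  rw [inc, Finsupp.add_apply, Finsupp.single_apply]
  split_ifs <;> rfl

lemma co_mul_none (m : Fin n →₀ ℕ) (r : Fin n) (f : MvPolynomial (Fin n × Option σ) K) :
    co m (f * X (r, none)) = if m r = 0 then 0 else co (dec m r) f := by
  classical
  rw [co, map_mul, Phi_X_none, coeff_mul_X']
  by_cases h : m r = 0
  · rw [if_pos h, if_neg (by simpa using h)]
  · rw [if_neg h, if_pos (by simpa using h)]; rfl

lemma co_mul_some (m : Fin n →₀ ℕ) (r : Fin n) (j : σ)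
    (f : MvPolynomial (Fin n × Option σ) K) :
    co m (f * X (r, some j)) = co m f * X (r, j) := by
  rw [co, map_mul, Phi_X_some, mul_comm, coeff_C_mul, mul_comm]; rfl

/-- The row operator in terms of the coefficients. -/
lemma co_rowOp {s i : Fin n} (hsi : s ≠ i) (f : MvPolynomial (Fin n × Option σ) K) :
    ∀ m : Fin n →₀ ℕ, co m (rowOp s i f) = rowOp s i (co m f) +
      if m s = 0 then 0 else
        ((m i + 1 : ℕ) : MvPolynomial (Fin n × σ) K) * co (inc (dec m s) i) f := by
  classical
  induction f using MvPolynomial.induction_on with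
  | C a =>
    intro m
    have h1 : rowOp s i (C a : MvPolynomial (Fin n × Option σ) K) = 0 := by
      rw [← algebraMap_eq]; exact Derivation.map_algebraMap _ _
    have h2 : rowOp s i (C a : MvPolynomial (Fin n × σ) K) = 0 := by
      rw [← algebraMap_eq]; exact Derivation.map_algebraMap _ _
    rw [h1, co_zero, co_C, co_C]
    have h3 : inc (dec m s) i ≠ 0 := by
      intro h
      have := DFunLike.congr_fun h i
      rw [inc_apply, if_pos rfl] at this
      simp at this
    rw [if_neg h3]
    by_cases hm : m = 0
    · rw [if_pos hm, h2]; simp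
    · rw [if_neg hm, map_zero]; simp
  | add f g hf hg =>
    intro m
    rw [map_add, co_add, hf, hg, co_add, map_add, co_add]
    split_ifs
    · ring
    · ring
  | mul_X f x hf =>
    intro m
    obtain ⟨r, o⟩ := x
    rw [Derivation.leibniz, smul_eq_mul, smul_eq_mul, co_add, rowOp_X]
    cases o with
    | some j =>
      rw [mul_comm (X (r, some j)) (rowOp s i f), co_mul_some, co_mul_some, hf,
        Derivation.leibniz, smul_eq_mul, smul_eq_mul, rowOp_X, co_mul_some]
      by_cases hr : r = i
      · simp only [hr, if_true]
        rw [co_mul_some]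
        split_ifs
        · ring
        · ring
      · simp only [hr, if_false]
        rw [mul_zero, co_zero]
        split_ifs
        · ring
        · ring
    | none =>
      rw [mul_comm (X (r, none)) (rowOp s i f), co_mul_none, co_mul_none, co_mul_none]
      by_cases hr : r = i
      · subst hr
        simp only [if_true]
        rw [co_mul_none]
        have h5 : inc (dec m s) r r ≠ 0 := by
          rw [inc_apply, if_pos rfl]; omega
        have h6 : dec (inc (dec m s) r) r = dec m s := by
          ext t
          rw [dec_apply, inc_apply]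
          split_ifs <;> omega
        rw [if_neg h5, h6]
        by_cases hm : m r = 0
        · rw [if_pos hm, if_pos hm, map_zero, add_zero, zero_add]
          split_ifs with hs
          · rfl
          · rw [hm]; simp
        · rw [if_neg hm, if_neg hm, hf]
          have h7 : dec m r s = m s := by
            rw [dec_apply, if_neg (Ne.symm hsi)]
          have h8 : dec m r r + 1 = m r := by
            rw [dec_apply, if_pos rfl]; omega
          have h9 : inc (dec (dec m r) s) r = dec m s := by
            ext t
            rw [inc_apply, dec_apply, dec_apply, dec_apply]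
            by_cases h1 : r = t
            · subst h1
              rw [if_pos rfl, if_neg hsi, if_pos rfl, if_neg hsi]; omega
            · rw [if_neg h1, if_neg h1]
          rw [h7, h8, h9]
          split_ifs with hs
          · ring
          · push_cast; ring
      · simp only [hr, if_false]
        rw [mul_zero, co_zero, zero_add]
        by_cases hm : m r = 0
        · rw [if_pos hm, if_pos hm, map_zero, zero_add]
          have h5 : inc (dec m s) i r = 0 := by
            rw [inc_apply, if_neg (Ne.symm hr), dec_apply, hm]
            split_ifs <;> rfl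
          rw [if_pos h5, mul_zero]
          split_ifs <;> rfl
        · rw [if_neg hm, if_neg hm, hf]
          congr 1
          have h8 : dec m r i = m i := by
            rw [dec_apply, if_neg hr]
          by_cases hrs : r = s
          · subst hrs
            by_cases h1 : m r = 1
            · have h2 : dec m r r = 0 := by rw [dec_apply, if_pos rfl, h1]
              have h3 : inc (dec m r) i r = 0 := by
                rw [inc_apply, if_neg (Ne.symm hr), h2]
              rw [if_pos h2, if_neg hm, if_pos h3, mul_zero]
            · have h2 : dec m r r ≠ 0 := by rw [dec_apply, if_pos rfl]; omega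
              have h3 : inc (dec m r) i r ≠ 0 := by
                rw [inc_apply, if_neg (Ne.symm hr)]; exact h2
              have h4 : inc (dec (dec m r) r) i = dec (inc (dec m r) i) r := by
                ext t
                simp only [inc_apply, dec_apply]
                by_cases h1 : i = t
                · subst h1
                  simp only [if_true, if_neg hr]
                · simp only [if_neg h1]
              rw [if_neg h2, if_neg hm, if_neg h3, h8, h4]
          · have h2 : dec m r s = m s := by
              rw [dec_apply, if_neg hrs]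
            have h3 : inc (dec m s) i r ≠ 0 := by
              rw [inc_apply, if_neg (Ne.symm hr), dec_apply, if_neg (Ne.symm hrs)]; exact hm
            have h4 : inc (dec (dec m r) s) i = dec (inc (dec m s) i) r := by
              ext t
              simp only [inc_apply, dec_apply]
              by_cases h1 : i = t
              · subst h1
                simp only [if_true, if_neg hr]
              · simp only [if_neg h1]
                split_ifs <;> omega
            rw [h2, h8, if_neg h3, h4]


lemma co_mul (m : Fin n →₀ ℕ) (f g : MvPolynomial (Fin n × Option σ) K) :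
    co m (f * g) = ∑ p ∈ Finset.HasAntidiagonal.antidiagonal m, co p.1 f * co p.2 g := by
  classical
  rw [co, map_mul, coeff_mul]; rfl

section Fin
variable [Fintype σ]

/-- Exponents, from those of the last column and those of the other columns. -/
noncomputable def comb (m : Fin n →₀ ℕ) (e : Fin n × σ →₀ ℕ) : Fin n × Option σ →₀ ℕ :=
  Finsupp.equivFunOnFinite.symm fun x => match x.2 with
    | none => m x.1
    | some j => e (x.1, j)

lemma comb_none (m : Fin n →₀ ℕ) (e : Fin n × σ →₀ ℕ) (r : Fin n) : comb m e (r, none) = m r := rfl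

lemma comb_some (m : Fin n →₀ ℕ) (e : Fin n × σ →₀ ℕ) (r : Fin n) (j : σ) :
    comb m e (r, some j) = e (r, j) := rfl

lemma exists_comb (d : Fin n × Option σ →₀ ℕ) : ∃ m e, d = comb m e := by
  refine ⟨Finsupp.equivFunOnFinite.symm fun r => d (r, none),
    Finsupp.equivFunOnFinite.symm fun x => d (x.1, some x.2), ?_⟩
  ext ⟨r, o⟩
  cases o <;> rfl

lemma comb_eq_zero (m : Fin n →₀ ℕ) (e : Fin n × σ →₀ ℕ) : comb m e = 0 ↔ m = 0 ∧ e = 0 := by
  constructor
  · intro h
    constructor
    · ext r
      exact DFunLike.congr_fun h (r, none)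
    · ext ⟨r, j⟩
      exact DFunLike.congr_fun h (r, some j)
  · rintro ⟨rfl, rfl⟩
    ext ⟨r, o⟩
    cases o <;> rfl

lemma coeff_co (f : MvPolynomial (Fin n × Option σ) K) :
    ∀ (m : Fin n →₀ ℕ) (e : Fin n × σ →₀ ℕ), coeff e (co m f) = coeff (comb m e) f := by
  classical
  induction f using MvPolynomial.induction_on with
  | C a =>
    intro m e
    rw [co_C, coeff_C]
    by_cases hm : m = 0
    · rw [if_pos hm, coeff_C]
      refine if_congr ?_ rfl rfl
      rw [eq_comm, eq_comm (b := comb m e), comb_eq_zero]
      exact ⟨fun h => ⟨hm, h⟩, fun h => h.2⟩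
    · rw [if_neg hm, coeff_zero, if_neg]
      intro h
      exact hm ((comb_eq_zero m e).mp h.symm).1
  | add f g hf hg =>
    intro m e
    rw [co_add, coeff_add, coeff_add, hf, hg]
  | mul_X f x hf =>
    intro m e
    obtain ⟨r, o⟩ := x
    cases o with
    | none =>
      rw [co_mul_none, coeff_mul_X']
      by_cases hm : m r = 0
      · rw [if_pos hm, coeff_zero, if_neg]
        rw [Finsupp.mem_support_iff, comb_none]
        exact fun h => h hm
      · rw [if_neg hm, if_pos (by rw [Finsupp.mem_support_iff, comb_none]; exact hm), hf]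
        congr 1
        ext ⟨t, o⟩
        rw [Finsupp.tsub_apply, Finsupp.single_apply]
        cases o with
        | none =>
          rw [comb_none, comb_none, dec_apply]
          by_cases h : r = t
          · subst h; simp
          · rw [if_neg h, if_neg (fun h' => h (Prod.ext_iff.mp h').1), Nat.sub_zero]
        | some j =>
          rw [comb_some, comb_some, if_neg (by simp), Nat.sub_zero]
    | some j =>
      rw [co_mul_some, coeff_mul_X', coeff_mul_X']
      by_cases hm : e (r, j) = 0
      · rw [if_neg, if_neg]
        · rw [Finsupp.mem_support_iff, comb_some]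
          exact fun h => h hm
        · rw [Finsupp.mem_support_iff]
          exact fun h => h hm
      · rw [if_pos (by rw [Finsupp.mem_support_iff]; exact hm),
          if_pos (by rw [Finsupp.mem_support_iff, comb_some]; exact hm), hf]
        congr 1
        ext ⟨t, o⟩
        rw [Finsupp.tsub_apply, Finsupp.single_apply]
        cases o with
        | none =>
          rw [comb_none, comb_none, if_neg (by simp), Nat.sub_zero]
        | some j' =>
          rw [comb_some, comb_some, Finsupp.tsub_apply, Finsupp.single_apply]
          congr 1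
          refine if_congr ?_ rfl rfl
          simp

lemma co_ext {f : MvPolynomial (Fin n × Option σ) K} (h : ∀ m, co m f = 0) : f = 0 := by
  ext d
  obtain ⟨m, e, rfl⟩ := exists_comb d
  rw [← coeff_co, h, coeff_zero, coeff_zero]

lemma co_wt {lam : Fin n → ℕ} {f : MvPolynomial (Fin n × Option σ) K} (hf : Wt lam f)
    {m : Fin n →₀ ℕ} (hm : co m f ≠ 0) :
    (∀ r, m r ≤ lam r) ∧ Wt (fun r => lam r - m r) (co m f) := by
  have key : ∀ e, coeff e (co m f) ≠ 0 → ∀ r, m r + ∑ j, e (r, j) = lam r := by
    intro e he r
    rw [coeff_co] at he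
    have h := Wt_iff.mp hf _ he r
    rw [Fintype.sum_option, comb_none] at h
    exact h
  constructor
  · intro r
    obtain ⟨e, he⟩ := MvPolynomial.ne_zero_iff.mp hm
    have := key e he r
    omega
  · rw [Wt_iff]
    intro e he r
    have := key e he r
    omega

end Fin

/-- The level of an exponent. -/
def lev (m : Fin n →₀ ℕ) : ℕ := ∑ r : Fin n, (r : ℕ) * m r

lemma lev_add (a b : Fin n →₀ ℕ) : lev (a + b) = lev a + lev b := by
  rw [lev, lev, lev, ← Finset.sum_add_distrib]
  exact Finset.sum_congr rfl fun r _ => by rw [Finsupp.add_apply, mul_add]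

lemma lev_single (s : Fin n) (k : ℕ) : lev (Finsupp.single s k) = s * k := by
  classical
  rw [lev, Finset.sum_eq_single s]
  · rw [Finsupp.single_eq_same]
  · intro r _ hr
    rw [Finsupp.single_apply, if_neg (Ne.symm hr), mul_zero]
  · intro h
    exact absurd (Finset.mem_univ s) h

lemma lev_move {m : Fin n →₀ ℕ} {s : Fin n} (i : Fin n) (hm : m s ≠ 0) :
    lev (inc (dec m s) i) + s = lev m + i := by
  classical
  have h1 : dec m s + Finsupp.single s 1 = m := by
    rw [dec]
    exact tsub_add_cancel_of_le (by rw [Finsupp.single_le_iff]; omega)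
  have h2 : lev m = lev (dec m s) + s := by
    conv_lhs => rw [← h1, lev_add, lev_single, mul_one]
  rw [inc, lev_add, lev_single, mul_one, h2]
  omega

/-- The leading term of `f` is `h z^e`. -/
structure Top (e : Fin n →₀ ℕ) (h : MvPolynomial (Fin n × σ) K)
    (f : MvPolynomial (Fin n × Option σ) K) : Prop where
  top : co e f = h
  low : ∀ m, co m f ≠ 0 → m = e ∨ lev m < lev e

lemma Top.zero (e : Fin n →₀ ℕ) : Top (K := K) (σ := σ) e 0 0 :=
  ⟨co_zero e, fun m hm => absurd (co_zero m) hm⟩

lemma Top.add {e : Fin n →₀ ℕ} {h h' : MvPolynomial (Fin n × σ) K}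
    {f f' : MvPolynomial (Fin n × Option σ) K} (H : Top e h f) (H' : Top e h' f') :
    Top e (h + h') (f + f') := by
  refine ⟨by rw [co_add, H.top, H'.top], fun m hm => ?_⟩
  rw [co_add] at hm
  by_cases h0 : co m f = 0
  · rw [h0, zero_add] at hm
    exact H'.low m hm
  · exact H.low m h0

lemma Top.smul {e : Fin n →₀ ℕ} {h : MvPolynomial (Fin n × σ) K}
    {f : MvPolynomial (Fin n × Option σ) K} (c : K) (H : Top e h f) : Top e (c • h) (c • f) := by
  refine ⟨by rw [co_smul, H.top], fun m hm => ?_⟩
  rw [co_smul] at hm
  exact H.low m fun h0 => hm (by rw [h0, smul_zero])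

lemma Top.mul {e e' : Fin n →₀ ℕ} {h h' : MvPolynomial (Fin n × σ) K}
    {f f' : MvPolynomial (Fin n × Option σ) K} (H : Top e h f) (H' : Top e' h' f') :
    Top (e + e') (h * h') (f * f') := by
  classical
  have hle : ∀ m, co m f ≠ 0 → lev m ≤ lev e := fun m hm => by
    rcases H.low m hm with h1 | h1
    · rw [h1]
    · exact h1.le
  have hle' : ∀ m, co m f' ≠ 0 → lev m ≤ lev e' := fun m hm => by
    rcases H'.low m hm with h1 | h1
    · rw [h1]
    · exact h1.le
  constructor
  · rw [co_mul, Finset.sum_eq_single (e, e')]
    · rw [H.top, H'.top]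
    · rintro ⟨a, b⟩ hab hne
      rw [Finset.HasAntidiagonal.mem_antidiagonal] at hab
      dsimp only at hab ⊢
      by_contra h0
      have ha : co a f ≠ 0 := fun h => h0 (by rw [h, zero_mul])
      have hb : co b f' ≠ 0 := fun h => h0 (by rw [h, mul_zero])
      have h1 := congrArg lev hab
      rw [lev_add, lev_add] at h1
      rcases H.low a ha with h2 | h2
      · apply hne
        rw [h2] at hab ⊢
        rw [add_left_cancel hab]
      · have := hle' b hb
        omega
    · intro h1
      rw [Finset.HasAntidiagonal.mem_antidiagonal] at h1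
      exact (h1 rfl).elim
  · intro m hm
    rw [co_mul] at hm
    obtain ⟨⟨a, b⟩, hab, h0⟩ := Finset.exists_ne_zero_of_sum_ne_zero hm
    rw [Finset.HasAntidiagonal.mem_antidiagonal] at hab
    dsimp only at hab h0
    have ha : co a f ≠ 0 := fun h => h0 (by rw [h, zero_mul])
    have hb : co b f' ≠ 0 := fun h => h0 (by rw [h, mul_zero])
    rcases H.low a ha with h2 | h2
    · rcases H'.low b hb with h3 | h3
      · left
        rw [← hab, h2, h3]
      · right
        rw [← hab, lev_add, lev_add, h2]
        omega
    · right
      have := hle' b hb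
      rw [← hab, lev_add, lev_add]
      omega

/-- Every element of `A` is the leading coefficient, at `e`, of an element of `A'`. -/
def Lifts (A : Submodule K (MvPolynomial (Fin n × σ) K))
    (A' : Submodule K (MvPolynomial (Fin n × Option σ) K)) (e : Fin n →₀ ℕ) : Prop :=
  ∀ h ∈ A, ∃ f ∈ A', Top e h f

lemma Lifts.mul {A B : Submodule K (MvPolynomial (Fin n × σ) K)}
    {A' B' : Submodule K (MvPolynomial (Fin n × Option σ) K)} {e e' : Fin n →₀ ℕ}
    (hA : Lifts A A' e) (hB : Lifts B B' e') : Lifts (A * B) (A' * B') (e + e') := by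
  intro h hh
  induction hh using Submodule.mul_induction_on' with
  | mem_mul_mem a ha b hb =>
    obtain ⟨f, hf, Hf⟩ := hA a ha
    obtain ⟨g, hg, Hg⟩ := hB b hb
    exact ⟨f * g, Submodule.mul_mem_mul hf hg, Hf.mul Hg⟩
  | add x _ y _ hx hy =>
    obtain ⟨f, hf, Hf⟩ := hx
    obtain ⟨g, hg, Hg⟩ := hy
    exact ⟨f + g, Submodule.add_mem _ hf hg, Hf.add Hg⟩

lemma Lifts.one : Lifts (K := K) (n := n) (σ := σ) 1 1 0 := by
  intro h hh
  rw [Submodule.mem_one] at hh
  obtain ⟨c, rfl⟩ := hh
  refine ⟨algebraMap K _ c, Submodule.mem_one.mpr ⟨c, rfl⟩, ?_, ?_⟩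
  · rw [algebraMap_eq, co_C, if_pos rfl]; rfl
  · intro m hm
    left
    by_contra h0
    rw [algebraMap_eq, co_C, if_neg h0] at hm
    exact hm rfl

lemma Lifts.pow {A : Submodule K (MvPolynomial (Fin n × σ) K)}
    {A' : Submodule K (MvPolynomial (Fin n × Option σ) K)} {e : Fin n →₀ ℕ}
    (hA : Lifts A A' e) (k : ℕ) : Lifts (A ^ k) (A' ^ k) (k • e) := by
  induction k with
  | zero => rw [pow_zero, pow_zero, zero_smul]; exact Lifts.one
  | succ k ih => rw [pow_succ, pow_succ, add_smul, one_smul]; exact ih.mul hA

lemma Lifts.prod {ι : Type*} (s : Finset ι) {A : ι → Submodule K (MvPolynomial (Fin n × σ) K)}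
    {A' : ι → Submodule K (MvPolynomial (Fin n × Option σ) K)} {e : ι → (Fin n →₀ ℕ)}
    (hA : ∀ i ∈ s, Lifts (A i) (A' i) (e i)) :
    Lifts (∏ i ∈ s, A i) (∏ i ∈ s, A' i) (∑ i ∈ s, e i) := by
  classical
  induction s using Finset.induction_on with
  | empty => rw [Finset.prod_empty, Finset.prod_empty, Finset.sum_empty]; exact Lifts.one
  | insert i s hi ih =>
    rw [Finset.prod_insert hi, Finset.prod_insert hi, Finset.sum_insert hi]
    exact (hA i (Finset.mem_insert_self i s)).mul
      (ih fun j hj => hA j (Finset.mem_insert_of_mem hj))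

end Vale.Agent.P181.H663
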