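import Vale.Agent.P181.H663.Coef

set_option autoImplicit false

open MvPolynomial

namespace Vale.Agent.P181.H663

variable {K : Type*} [Field K] {n : ℕ} {σ : Type*} [Fintype σ]

/-- The extreme coefficients are highest weight polynomials. -/
lemma lead_HW {lam : Fin n → ℕ} {f : MvPolynomial (Fin n × Option σ) K}
    (hf : f ∈ HW K (Option σ) lam) {e : Fin n →₀ ℕ} (he : co e f ≠ 0)
    (hmax : ∀ m, co m f ≠ 0 → lev m ≤ lev e) :
    co e f ∈ HW K σ (fun r => lam r - e r) := by
  refine ⟨(co_wt hf.1 he).2, fun s i hsi => ?_⟩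
  have h := co_rowOp hsi.ne f e
  rw [hf.2 s i hsi, co_zero] at h
  split_ifs at h with h0
  · rw [add_zero] at h
    exact h.symm
  · have h1 : co (inc (dec e s) i) f = 0 := by
      by_contra h2
      have h3 := hmax _ h2
      have h4 := lev_move (m := e) i h0
      have h5 : (s : ℕ) < i := hsi
      omega
    rw [h1, mul_zero, add_zero] at h
    exact h.symm

/-- moving `t` from `i` to `k` -/
noncomputable def mv (e : Fin n →₀ ℕ) (i k : Fin n) (t : ℕ) : Fin n →₀ ℕ :=
  Finsupp.equivFunOnFinite.symm fun r =>
    if r = i then e i - t else if r = k then e k + t else e r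

lemma mv_apply (e : Fin n →₀ ℕ) (i k : Fin n) (t : ℕ) (r : Fin n) :
    mv e i k t r = if r = i then e i - t else if r = k then e k + t else e r := rfl

lemma mv_zero (e : Fin n →₀ ℕ) (i k : Fin n) : mv e i k 0 = e := by
  ext r
  rw [mv_apply]
  split_ifs with h1 h2
  · rw [h1, Nat.sub_zero]
  · rw [h2, Nat.add_zero]
  · rfl

lemma mv_succ {e : Fin n →₀ ℕ} {i k : Fin n} (hik : i ≠ k) {t : ℕ} (ht : t + 1 ≤ e i) :
    inc (dec (mv e i k (t + 1)) k) i = mv e i k t := by
  ext r
  rw [inc_apply, dec_apply, mv_apply, mv_apply]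
  by_cases h1 : r = i
  · subst h1
    simp only [if_true, if_neg hik.symm]
    omega
  · by_cases h2 : r = k
    · subst h2
      simp only [if_true, if_neg h1, if_neg (Ne.symm h1)]
      omega
    · simp only [if_neg h1, if_neg h2, if_neg (Ne.symm h1), if_neg (Ne.symm h2)]

lemma iter_low {f : MvPolynomial (Fin n × Option σ) K} {i k : Fin n} (hik : i < k) {L : ℕ}
    (hmax : ∀ m, co m f ≠ 0 → lev m ≤ L) (t : ℕ) :
    ∀ m, co m ((rowOp k i)^[t] f) ≠ 0 → lev m + t * i ≤ L + t * k := by
  induction t with
  | zero => intro m hm; simpa using hmax m hm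
  | succ t ih =>
    intro m hm
    have h5 : (i : ℕ) < k := hik
    rw [Function.iterate_succ_apply', co_rowOp hik.ne'] at hm
    by_contra hcon
    have e1 : (t + 1) * (i : ℕ) = t * i + i := by ring
    have e2 : (t + 1) * (k : ℕ) = t * k + k := by ring
    have h1 : co m ((rowOp k i)^[t] f) = 0 := by
      by_contra h2
      have := ih m h2
      omega
    rw [h1, map_zero, zero_add] at hm
    split_ifs at hm with h0
    · exact hm rfl
    · have h2 : co (inc (dec m k) i) ((rowOp k i)^[t] f) ≠ 0 := fun h => hm (by rw [h, mul_zero])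
      have h3 := ih _ h2
      have h4 := lev_move (m := m) i h0
      omega

/-- The bound for the extreme exponents. -/
lemma lead_le [CharZero K] {lam : Fin n → ℕ} {f : MvPolynomial (Fin n × Option σ) K}
    (hf : f ∈ HW K (Option σ) lam) {e : Fin n →₀ ℕ} (he : co e f ≠ 0)
    (hmax : ∀ m, co m f ≠ 0 → lev m ≤ lev e) {i k : Fin n} (hik : i < k) {g : ℕ}
    (hg : lam i = lam k + g) : e i ≤ g := by
  by_contra hcon
  push Not at hcon
  have hzero : (rowOp k i)^[g + 1] f = 0 := pow_eq_zero hik.ne hf.1 (hf.2 i k hik) hg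
  have h5 : (i : ℕ) < k := hik
  have hlev : ∀ t, t ≤ e i → lev (mv e i k t) + t * i = lev e + t * k := by
    intro t
    induction t with
    | zero => intro _; rw [mv_zero]; simp
    | succ t ih =>
      intro ht
      have h1 := ih (by omega)
      have h2 : mv e i k (t + 1) k ≠ 0 := by
        rw [mv_apply, if_neg hik.ne', if_pos rfl]; omega
      have h3 := lev_move (m := mv e i k (t + 1)) i h2
      rw [mv_succ hik.ne ht] at h3
      have e1 : (t + 1) * (i : ℕ) = t * i + i := by ring
      have e2 : (t + 1) * (k : ℕ) = t * k + k := by ring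
      omega
  have key : ∀ t, t ≤ e i → co (mv e i k t) ((rowOp k i)^[t] f) ≠ 0 := by
    intro t
    induction t with
    | zero => intro _; rw [mv_zero]; exact he
    | succ t ih =>
      intro ht
      have h1 := ih (by omega)
      have h2 : mv e i k (t + 1) k ≠ 0 := by
        rw [mv_apply, if_neg hik.ne', if_pos rfl]; omega
      rw [Function.iterate_succ_apply', co_rowOp hik.ne', if_neg h2, mv_succ hik.ne ht]
      have h3 : co (mv e i k (t + 1)) ((rowOp k i)^[t] f) = 0 := by
        by_contra h4
        have h6 := iter_low hik hmax t _ h4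
        have h7 := hlev (t + 1) ht
        have e1 : (t + 1) * (i : ℕ) = t * i + i := by ring
        have e2 : (t + 1) * (k : ℕ) = t * k + k := by ring
        omega
      rw [h3, map_zero, zero_add]
      refine mul_ne_zero ?_ h1
      rw [Nat.cast_ne_zero]
      omega
  have h8 := key (g + 1) (by omega)
  rw [hzero, co_zero] at h8
  exact h8 rfl

end Vale.Agent.P181.H663
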