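import Mathlib

set_option autoImplicit false

open MvPolynomial

namespace Vale.Agent.P181.H663

variable {K : Type*} [Field K] {n : ℕ} {σ : Type*}

/-- The derivation which replaces row `i` by row `s`: `∑ j, x_(s,j) ∂/∂x_(i,j)`. -/
noncomputable def rowOp (s i : Fin n) :
    Derivation K (MvPolynomial (Fin n × σ) K) (MvPolynomial (Fin n × σ) K) :=
  mkDerivation K fun x => if x.1 = i then X (s, x.2) else 0

lemma rowOp_X (s i : Fin n) (x : Fin n × σ) :
    rowOp (K := K) s i (X x) = if x.1 = i then X (s, x.2) else 0 :=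
  mkDerivation_X ..

/-- weight of a variable: the row -/
def wv (x : Fin n × σ) : Fin n → ℕ := Pi.single x.1 1

/-- `f` has row degrees `lam`. -/
def Wt (lam : Fin n → ℕ) (f : MvPolynomial (Fin n × σ) K) : Prop :=
  IsWeightedHomogeneous wv f lam

/-- The highest weight polynomials with row degrees `lam`. -/
noncomputable def HW (K : Type*) [Field K] {n : ℕ} (σ : Type*) (lam : Fin n → ℕ) :
    Submodule K (MvPolynomial (Fin n × σ) K) where
  carrier := {f | Wt lam f ∧ ∀ s i : Fin n, s < i → rowOp s i f = 0}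
  add_mem' := by
    rintro f g ⟨h1, h2⟩ ⟨h3, h4⟩
    exact ⟨IsWeightedHomogeneous.add h1 h3, fun s i h => by rw [map_add, h2 s i h, h4 s i h, add_zero]⟩
  zero_mem' := ⟨isWeightedHomogeneous_zero _ _ _, fun s i _ => map_zero _⟩
  smul_mem' := by
    rintro c f ⟨h1, h2⟩
    refine ⟨?_, fun s i h => by rw [Derivation.map_smul, h2 s i h, smul_zero]⟩
    exact (weightedHomogeneousSubmodule K wv lam).smul_mem c h1

lemma mem_HW {lam : Fin n → ℕ} {f : MvPolynomial (Fin n × σ) K} :
    f ∈ HW K σ lam ↔ Wt lam f ∧ ∀ s i : Fin n, s < i → rowOp s i f = 0 := Iff.rfl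

lemma weight_apply [Fintype σ] (d : Fin n × σ →₀ ℕ) (r : Fin n) :
    Finsupp.weight wv d r = ∑ j, d (r, j) := by
  classical
  rw [Finsupp.weight_apply, Finsupp.sum_fintype _ _ (fun i => by simp), Finset.sum_apply,
    Fintype.sum_prod_type, Finset.sum_eq_single r]
  · refine Finset.sum_congr rfl fun j _ => ?_
    simp [wv]
  · intro b _ hb
    refine Finset.sum_eq_zero fun j _ => ?_
    simp [wv, Pi.single_eq_of_ne (Ne.symm hb)]
  · simp

lemma Wt_iff [Fintype σ] {lam : Fin n → ℕ} {f : MvPolynomial (Fin n × σ) K} :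
    Wt lam f ↔ ∀ d, coeff d f ≠ 0 → ∀ r, ∑ j, d (r, j) = lam r := by
  constructor
  · intro h d hd r
    rw [← weight_apply, h hd]
  · intro h d hd
    funext r
    rw [weight_apply, h d hd r]

lemma Wt.mul {l m : Fin n → ℕ} {f g : MvPolynomial (Fin n × σ) K} (hf : Wt l f) (hg : Wt m g) :
    Wt (l + m) (f * g) := IsWeightedHomogeneous.mul hf hg

/-- The derivation on a monomial. -/
lemma rowOp_monomial (s i : Fin n) (d : Fin n × σ →₀ ℕ) (c : K) :
    rowOp s i (monomial d c) = d.sum fun x k =>
      if x.1 = i then monomial (d - Finsupp.single x 1 + Finsupp.single (s, x.2) 1) (c * k)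
      else 0 := by
  classical
  rw [rowOp, mkDerivation_monomial, Finsupp.smul_sum]
  refine Finsupp.sum_congr fun x _ => ?_
  split_ifs with h
  · rw [X, smul_eq_mul, monomial_mul, mul_one, smul_monomial, smul_eq_mul]
  · rw [smul_zero, smul_zero]

lemma weight_move (s : Fin n) {x : Fin n × σ} {d : Fin n × σ →₀ ℕ} (hx : d x ≠ 0) :
    Finsupp.weight wv (d - Finsupp.single x 1 + Finsupp.single (s, x.2) 1) + Pi.single x.1 1 =
      Finsupp.weight wv d + Pi.single s 1 := by
  have h1 : d - Finsupp.single x 1 + Finsupp.single x 1 = d :=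
    tsub_add_cancel_of_le (by
      classical
      rw [Finsupp.single_le_iff]; omega)
  have h2 : ∀ y : Fin n × σ, Finsupp.weight wv (Finsupp.single y 1) = (Pi.single y.1 1 : Fin n → ℕ) := by
    intro y
    rw [Finsupp.weight_single, one_smul]; rfl
  rw [map_add, h2]
  conv_rhs => rw [← h1, map_add, h2]
  simp only [add_assoc]
  congr 1
  rw [add_comm]

/-- `rowOp s i` moves one degree from row `i` to row `s`. -/
lemma Wt.rowOp {lam : Fin n → ℕ} {f : MvPolynomial (Fin n × σ) K} (hf : Wt lam f)
    {s i : Fin n} {mu : Fin n → ℕ} (h : mu + Pi.single i 1 = lam + Pi.single s 1) :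
    Wt mu (H663.rowOp s i f) := by
  classical
  have hsum : H663.rowOp s i f = ∑ d ∈ f.support, H663.rowOp s i (monomial d (coeff d f)) := by
    conv_lhs => rw [f.as_sum]
    rw [map_sum]
  rw [hsum]
  refine (weightedHomogeneousSubmodule K wv mu).sum_mem fun d hd => ?_
  rw [rowOp_monomial]
  refine (weightedHomogeneousSubmodule K wv mu).sum_mem fun x hx => ?_
  dsimp only
  split_ifs with hxi
  · refine isWeightedHomogeneous_monomial _ _ _ ?_
    have h3 := weight_move (σ := σ) s (Finsupp.mem_support_iff.mp hx)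
    rw [hf (mem_support_iff.mp hd), hxi, ← h] at h3
    exact add_right_cancel h3
  · exact Submodule.zero_mem _

lemma Wt.rowOp_eq_zero {lam : Fin n → ℕ} {f : MvPolynomial (Fin n × σ) K} (hf : Wt lam f)
    (s : Fin n) {i : Fin n} (h : lam i = 0) : H663.rowOp s i f = 0 := by
  classical
  have hsum : H663.rowOp s i f = ∑ d ∈ f.support, H663.rowOp s i (monomial d (coeff d f)) := by
    conv_lhs => rw [f.as_sum]
    rw [map_sum]
  rw [hsum]
  refine Finset.sum_eq_zero fun d hd => ?_
  rw [rowOp_monomial]
  refine Finset.sum_eq_zero fun x hx => ?_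
  dsimp only
  split_ifs with hxi
  · exfalso
    have hx' : d x ≠ 0 := Finsupp.mem_support_iff.mp hx
    have h1 : d - Finsupp.single x 1 + Finsupp.single x 1 = d :=
      tsub_add_cancel_of_le (by rw [Finsupp.single_le_iff]; omega)
    have h2 : Finsupp.weight wv d i = 0 := by rw [hf (mem_support_iff.mp hd), h]
    rw [← h1, map_add, Finsupp.weight_single, one_smul, Pi.add_apply, ← hxi, wv,
      Pi.single_eq_same] at h2
    omega
  · rfl

lemma rowOp_self {lam : Fin n → ℕ} {f : MvPolynomial (Fin n × σ) K} (hf : Wt lam f) (i : Fin n) :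
    rowOp i i f = (lam i : K) • f := by
  classical
  have key : ∀ d ∈ f.support, rowOp i i (monomial d (coeff d f)) =
      (lam i : K) • monomial d (coeff d f) := by
    intro d hd
    rw [rowOp_monomial]
    have h1 : ∀ x ∈ d.support, (if x.1 = i then
        monomial (d - Finsupp.single x 1 + Finsupp.single (i, x.2) 1) (coeff d f * (d x : K)) else 0)
        = ((d x * (wv x i) : ℕ) : K) • monomial d (coeff d f) := by
      intro x hx
      have hx' : d x ≠ 0 := Finsupp.mem_support_iff.mp hx
      split_ifs with hxi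
      · have h2 : (i, x.2) = x := by rw [← hxi]
        rw [h2, tsub_add_cancel_of_le (by rw [Finsupp.single_le_iff]; omega), wv, hxi,
          Pi.single_eq_same, mul_one, smul_monomial, smul_eq_mul, mul_comm]
      · rw [wv, Pi.single_eq_of_ne (Ne.symm hxi), mul_zero, Nat.cast_zero, zero_smul]
    rw [Finsupp.sum, Finset.sum_congr rfl h1, ← Finset.sum_smul]
    congr 1
    rw [← Nat.cast_sum]
    congr 1
    have h3 := congrFun (hf (mem_support_iff.mp hd)) i
    rw [Finsupp.weight_apply, Finsupp.sum, Finset.sum_apply] at h3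
    rw [← h3]
    refine Finset.sum_congr rfl fun x _ => ?_
    simp
  conv_lhs => rw [f.as_sum, map_sum, Finset.sum_congr rfl key, ← Finset.smul_sum, ← f.as_sum]

/-- `[E, F] = H` -/
lemma comm_EF {i k : Fin n} (hik : i ≠ k) (f : MvPolynomial (Fin n × σ) K) :
    rowOp i k (rowOp k i f) - rowOp k i (rowOp i k f) = rowOp i i f - rowOp k k f := by
  have h : ⁅rowOp (K := K) (σ := σ) i k, rowOp (K := K) (σ := σ) k i⁆ =
      rowOp (K := K) (σ := σ) i i - rowOp (K := K) (σ := σ) k k := by
    refine MvPolynomial.derivation_ext fun x => ?_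
    rw [Derivation.commutator_apply, Derivation.sub_apply, rowOp_X, rowOp_X, rowOp_X, rowOp_X]
    by_cases h1 : x.1 = i
    · have h2 : x.1 ≠ k := fun h => hik (h1 ▸ h)
      rw [if_pos h1, if_neg h2, rowOp_X, if_pos rfl, map_zero, if_neg h2, if_pos h1]
    · by_cases h2 : x.1 = k
      · rw [if_neg h1, if_pos h2, map_zero, rowOp_X, if_pos rfl, if_neg h1, if_pos h2]
      · rw [if_neg h1, if_neg h2, map_zero, map_zero, if_neg h1, if_neg h2]
  rw [← Derivation.commutator_apply, h, Derivation.sub_apply]


lemma comm_HF {i k : Fin n} (hik : i ≠ k) (f : MvPolynomial (Fin n × σ) K) :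
    rowOp i i (rowOp k i f) - rowOp k k (rowOp k i f) =
      rowOp k i (rowOp i i f - rowOp k k f) - (2 : K) • rowOp k i f := by
  have h : ⁅rowOp (K := K) (σ := σ) i i, rowOp (K := K) (σ := σ) k i⁆ =
      - rowOp (K := K) (σ := σ) k i := by
    refine MvPolynomial.derivation_ext fun x => ?_
    rw [Derivation.commutator_apply, Derivation.neg_apply, rowOp_X, rowOp_X]
    by_cases h1 : x.1 = i
    · simp only [if_pos h1]
      rw [rowOp_X, rowOp_X]
      simp [hik.symm]
    · simp only [if_neg h1]
      rw [map_zero, map_zero, sub_zero, neg_zero]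
  have h' : ⁅rowOp (K := K) (σ := σ) k k, rowOp (K := K) (σ := σ) k i⁆ =
      rowOp (K := K) (σ := σ) k i := by
    refine MvPolynomial.derivation_ext fun x => ?_
    rw [Derivation.commutator_apply, rowOp_X, rowOp_X]
    by_cases h1 : x.1 = i
    · have h2 : x.1 ≠ k := fun h => hik (h1 ▸ h)
      rw [if_pos h1, if_neg h2, rowOp_X, if_pos rfl, map_zero, sub_zero]
    · rw [if_neg h1, map_zero, zero_sub]
      by_cases h2 : x.1 = k
      · rw [if_pos h2, rowOp_X, if_neg hik.symm, neg_zero]
      · rw [if_neg h2, map_zero, neg_zero]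
  have e1 := congrArg (fun D => D f) h
  have e2 := congrArg (fun D => D f) h'
  simp only [Derivation.commutator_apply, Derivation.neg_apply] at e1 e2
  rw [map_sub, two_smul]
  linear_combination (exp := 1) e1 - e2

/-- `E F^(m+1) v = (m+1)(c-m) F^m v` and `H F^m v = (c-2m) F^m v`. -/
lemma sl2_aux {i k : Fin n} (hik : i ≠ k) {v : MvPolynomial (Fin n × σ) K} {c : K}
    (hE : rowOp i k v = 0) (hH : rowOp i i v - rowOp k k v = c • v) (m : ℕ) :
    (rowOp i i ((rowOp k i)^[m] v) - rowOp k k ((rowOp k i)^[m] v) =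
      (c - 2 * m) • ((rowOp k i)^[m] v)) ∧
    rowOp i k ((rowOp k i)^[m + 1] v) = (((m : K) + 1) * (c - m)) • ((rowOp k i)^[m] v) := by
  induction m with
  | zero =>
    refine ⟨by simpa using hH, ?_⟩
    have h1 := comm_EF hik v
    rw [hE, map_zero, sub_zero, hH] at h1
    simpa using h1
  | succ m ih =>
    obtain ⟨h1, h2⟩ := ih
    have h3 : rowOp i i ((rowOp k i)^[m + 1] v) - rowOp k k ((rowOp k i)^[m + 1] v) =
        (c - 2 * ((m + 1 : ℕ) : K)) • ((rowOp k i)^[m + 1] v) := by
      rw [Function.iterate_succ_apply', comm_HF hik, h1, Derivation.map_smul, ← sub_smul]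
      congr 1
      push_cast
      ring
    refine ⟨h3, ?_⟩
    have h4 := comm_EF hik ((rowOp k i)^[m + 1] v)
    rw [h3, h2, Derivation.map_smul, ← Function.iterate_succ_apply' (rowOp k i) (m + 1),
      ← Function.iterate_succ_apply' (rowOp k i) m, sub_eq_iff_eq_add, ← add_smul] at h4
    rw [h4]
    congr 1
    push_cast
    ring

lemma sl2_inj [CharZero K] {i k : Fin n} (hik : i ≠ k) {v : MvPolynomial (Fin n × σ) K} {w : ℕ}
    (hw : 0 < w) (hE : rowOp i k v = 0)
    (hH : rowOp i i v - rowOp k k v = (-(w : K)) • v) (m : ℕ)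
    (hn : (rowOp k i)^[m] v = 0) : v = 0 := by
  induction m with
  | zero => exact hn
  | succ m ih =>
    apply ih
    have h := (sl2_aux hik hE hH m).2
    rw [hn, map_zero, eq_comm, smul_eq_zero] at h
    rcases h with h | h
    · exfalso
      have h1 : ((m : K) + 1) * (-(w : K) - m) = -(((m + 1) * (w + m) : ℕ) : K) := by
        push_cast; ring
      rw [h1, neg_eq_zero, Nat.cast_eq_zero] at h
      have : 0 < (m + 1) * (w + m) := by positivity
      omega
    · exact h

lemma nilp {i k : Fin n} (hik : i ≠ k) (m : ℕ) : ∀ {v : MvPolynomial (Fin n × σ) K}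
    {lam : Fin n → ℕ}, Wt lam v → lam i < m → (rowOp k i)^[m] v = 0 := by
  induction m with
  | zero => intro v lam _ h; omega
  | succ m ih =>
    intro v lam hv hm
    rw [Function.iterate_succ_apply]
    rcases Nat.eq_zero_or_pos (lam i) with h0 | h0
    · rw [hv.rowOp_eq_zero k h0]
      exact Function.iterate_fixed (map_zero _) m
    · refine ih (lam := fun r => if r = i then lam i - 1 else if r = k then lam k + 1 else lam r)
        (hv.rowOp ?_) ?_
      · funext r
        simp only [Pi.add_apply]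
        by_cases h1 : r = i
        · subst h1
          rw [if_pos rfl, Pi.single_eq_same, Pi.single_eq_of_ne hik]
          omega
        · rw [if_neg h1, Pi.single_eq_of_ne h1]
          by_cases h2 : r = k
          · subst h2
            rw [if_pos rfl, Pi.single_eq_same, add_zero]
          · rw [if_neg h2, Pi.single_eq_of_ne h2]
      · rw [if_pos rfl]
        omega

/-- Highest weight polynomials are killed by `F^(g+1)`, `g = lam i - lam k`. -/
lemma pow_eq_zero [CharZero K] {i k : Fin n} (hik : i ≠ k) {v : MvPolynomial (Fin n × σ) K}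
    {lam : Fin n → ℕ} (hv : Wt lam v) (hE : rowOp i k v = 0) {g : ℕ} (hg : lam i = lam k + g) :
    (rowOp k i)^[g + 1] v = 0 := by
  have hH : rowOp i i v - rowOp k k v = (g : K) • v := by
    rw [rowOp_self hv, rowOp_self hv, ← sub_smul, hg]
    congr 1
    push_cast
    ring
  obtain ⟨h1, -⟩ := sl2_aux hik hE hH (g + 1)
  have h2 := (sl2_aux hik hE hH g).2
  rw [sub_self, mul_zero, zero_smul] at h2
  refine sl2_inj hik (w := g + 2) (by omega) h2 ?_ (lam i + 1) ?_
  · rw [h1]
    congr 1
    push_cast
    ring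
  · rw [← Function.iterate_add_apply]
    exact nilp hik _ hv (by omega)

end Vale.Agent.P181.H663
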