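import Vale.Agent.P181.H663.Bridge
import Vale.Agent.P181.H463.GtDef
import Vale.Agent.P181.H129.Ratio

set_option autoImplicit false

open MvPolynomial Module

namespace Vale.Agent.P181.H663

variable {n : ℕ} {σ : Type} [Fintype σ]

open Vale.Agent.P181.H463 (nxt strips gt)

instance finHW (lam : Fin n → ℕ) : FiniteDimensional ℂ (HW ℂ σ lam) := by
  rw [HW_eq_T4]
  infer_instance

/-- The highest weight polynomials of level less than `L`. -/
noncomputable def FL (lam : Fin n → ℕ) (L : ℕ) :
    Submodule ℂ (MvPolynomial (Fin n × Option σ) ℂ) where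
  carrier := {f | f ∈ HW ℂ (Option σ) lam ∧ ∀ m, co m f ≠ 0 → lev m < L}
  zero_mem' := ⟨Submodule.zero_mem _, fun m hm => absurd (co_zero m) hm⟩
  add_mem' := by
    rintro f g ⟨h1, h2⟩ ⟨h3, h4⟩
    refine ⟨Submodule.add_mem _ h1 h3, fun m hm => ?_⟩
    rw [co_add] at hm
    by_cases h0 : co m f = 0
    · rw [h0, zero_add] at hm
      exact h4 m hm
    · exact h2 m h0
  smul_mem' := by
    rintro c f ⟨h1, h2⟩
    refine ⟨Submodule.smul_mem _ c h1, fun m hm => ?_⟩
    rw [co_smul] at hm
    exact h2 m fun h0 => hm (by rw [h0, smul_zero])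

/-- the exponent belonging to `mu` -/
noncomputable def dif (lam mu : Fin n → ℕ) : Fin n →₀ ℕ :=
  Finsupp.equivFunOnFinite.symm fun r => lam r - mu r

lemma dif_apply (lam mu : Fin n → ℕ) (r : Fin n) : dif lam mu r = lam r - mu r := rfl

lemma mem_strips {lam mu : Fin n → ℕ} :
    mu ∈ strips lam ↔ ∀ i, nxt lam i ≤ mu i ∧ mu i ≤ lam i := by
  rw [strips, Fintype.mem_piFinset]
  simp only [Finset.mem_Icc]

lemma co_dif_mem {lam mu : Fin n → ℕ} (hmu : ∀ i, mu i ≤ lam i) {L : ℕ}
    (hL : lev (dif lam mu) = L) {f : MvPolynomial (Fin n × Option σ) ℂ} (hf : f ∈ FL lam (L + 1)) :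
    co (dif lam mu) f ∈ HW ℂ σ mu := by
  by_cases h0 : co (dif lam mu) f = 0
  · rw [h0]; exact Submodule.zero_mem _
  · have h := lead_HW hf.1 h0 (fun m hm => by have := hf.2 m hm; omega)
    have h1 : (fun r => lam r - dif lam mu r) = mu := by
      funext r
      rw [dif_apply]
      have := hmu r
      omega
    rwa [h1] at h

/-- One level. -/
lemma finrank_FL_succ {lam : Fin n → ℕ} (hlam : Antitone lam) (L : ℕ) :
    finrank ℂ (FL (σ := σ) lam (L + 1)) ≤ finrank ℂ (FL (σ := σ) lam L) +
      ∑ mu ∈ (strips lam).filter (fun mu => lev (dif lam mu) = L), finrank ℂ (HW ℂ σ mu) := by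
  classical
  set S := (strips lam).filter (fun mu => lev (dif lam mu) = L) with hS
  have hfd : ∀ L, FiniteDimensional ℂ (FL (σ := σ) lam L) := fun L =>
    Submodule.finiteDimensional_of_le (S₂ := HW ℂ (Option σ) lam) fun f hf => hf.1
  haveI := hfd (L + 1)
  haveI := hfd L
  let psi : FL (σ := σ) lam (L + 1) →ₗ[ℂ] ((mu : S) → HW ℂ σ (mu : Fin n → ℕ)) :=
    { toFun := fun f mu => ⟨co (dif lam mu) f.1, co_dif_mem
        (fun i => ((mem_strips.mp (Finset.mem_filter.mp mu.2).1) i).2)
        (Finset.mem_filter.mp mu.2).2 f.2⟩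
      map_add' := fun f g => by
        funext mu
        exact Subtype.ext (co_add _ _ _)
      map_smul' := fun c f => by
        funext mu
        exact Subtype.ext (co_smul _ _ _) }
  have h1 := LinearMap.finrank_range_add_finrank_ker psi
  have h2 : finrank ℂ (LinearMap.range psi) ≤ ∑ mu ∈ S, finrank ℂ (HW ℂ σ mu) := by
    refine (Submodule.finrank_le _).trans ?_
    rw [Module.finrank_pi_fintype, Finset.sum_coe_sort S (fun mu => finrank ℂ (HW ℂ σ mu))]
  have h3 : finrank ℂ (LinearMap.ker psi) ≤ finrank ℂ (FL (σ := σ) lam L) := by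
    have hker : ∀ f : LinearMap.ker psi, (f : FL (σ := σ) lam (L + 1)).1 ∈ FL (σ := σ) lam L := by
      rintro ⟨⟨f, hf⟩, hk⟩
      refine ⟨hf.1, fun m hm => ?_⟩
      have h4 := hf.2 m hm
      by_contra h5
      have h6 : lev m = L := by omega
      have hmax : ∀ m', co m' f ≠ 0 → lev m' ≤ lev m := fun m' hm' => by
        have := hf.2 m' hm'; omega
      have hle := (co_wt hf.1.1 hm).1
      have hd : dif lam (fun r => lam r - m r) = m := by
        ext r
        rw [dif_apply]
        have := hle r
        omega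
      have hmem : (fun r => lam r - m r) ∈ S := by
        rw [hS, Finset.mem_filter, hd, mem_strips]
        refine ⟨fun i => ⟨?_, Nat.sub_le _ _⟩, h6⟩
        rw [nxt]
        split_ifs with hi
        · have h7 : lam ⟨(i : ℕ) + 1, hi⟩ ≤ lam i := hlam (by
            rw [Fin.le_iff_val_le_val]; exact Nat.le_succ _)
          have h8 := lead_le hf.1 hm hmax (i := i) (k := ⟨(i : ℕ) + 1, hi⟩)
            (by rw [Fin.lt_iff_val_lt_val]; exact Nat.lt_succ_self _)
            (g := lam i - lam ⟨(i : ℕ) + 1, hi⟩) (by omega)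
          omega
        · exact Nat.zero_le _
      have h9 : psi ⟨f, hf⟩ ⟨_, hmem⟩ = 0 := by
        rw [LinearMap.mem_ker] at hk
        rw [hk]; rfl
      have h10 := congrArg Subtype.val h9
      change co (dif lam fun r => lam r - m r) f = 0 at h10
      rw [hd] at h10
      exact hm h10
    let iota : LinearMap.ker psi →ₗ[ℂ] FL (σ := σ) lam L :=
      { toFun := fun f => ⟨_, hker f⟩
        map_add' := fun _ _ => rfl
        map_smul' := fun _ _ => rfl }
    refine LinearMap.finrank_le_finrank_of_injective (f := iota) ?_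
    intro f g hfg
    have h11 := congrArg Subtype.val hfg
    exact Subtype.ext (Subtype.ext h11)
  omega

lemma finrank_FL_le {lam : Fin n → ℕ} (hlam : Antitone lam) (L : ℕ) :
    finrank ℂ (FL (σ := σ) lam L) ≤
      ∑ mu ∈ (strips lam).filter (fun mu => lev (dif lam mu) < L), finrank ℂ (HW ℂ σ mu) := by
  classical
  induction L with
  | zero =>
    have h : FL (σ := σ) lam 0 = ⊥ := by
      rw [eq_bot_iff]
      intro f hf
      rw [Submodule.mem_bot]
      refine co_ext fun m => ?_
      by_contra hm
      exact absurd (hf.2 m hm) (Nat.not_lt_zero _)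
    rw [h, finrank_bot]
    exact Nat.zero_le _
  | succ L ih =>
    refine (finrank_FL_succ hlam L).trans ?_
    have h1 : (strips lam).filter (fun mu => lev (dif lam mu) < L + 1) =
        (strips lam).filter (fun mu => lev (dif lam mu) < L) ∪
          (strips lam).filter (fun mu => lev (dif lam mu) = L) := by
      rw [← Finset.filter_or]
      refine Finset.filter_congr fun mu _ => ?_
      omega
    rw [h1, Finset.sum_union]
    · exact Nat.add_le_add_right ih _
    · rw [Finset.disjoint_filter]
      intro mu _ h2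
      omega

/-- **Upper branching**. -/
theorem finrank_branch {lam : Fin n → ℕ} (hlam : Antitone lam) :
    finrank ℂ (HW ℂ (Option σ) lam) ≤ ∑ mu ∈ strips lam, finrank ℂ (HW ℂ σ mu) := by
  classical
  have h : HW ℂ (Option σ) lam ≤ FL (σ := σ) lam ((∑ r : Fin n, (r : ℕ) * lam r) + 1) := by
    intro f hf
    refine ⟨hf, fun m hm => ?_⟩
    have hle := (co_wt hf.1 hm).1
    have : lev m ≤ ∑ r : Fin n, (r : ℕ) * lam r :=
      Finset.sum_le_sum fun r _ => Nat.mul_le_mul_left _ (hle r)
    omega
  haveI : FiniteDimensional ℂ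
      (FL (σ := σ) lam ((∑ r : Fin n, (r : ℕ) * lam r) + 1)) :=
    Submodule.finiteDimensional_of_le (S₂ := HW ℂ (Option σ) lam) fun f hf => hf.1
  refine (Submodule.finrank_mono h).trans ((finrank_FL_le hlam _).trans ?_)
  exact Finset.sum_le_sum_of_subset (Finset.filter_subset _ _)

lemma strips_antitone {lam mu : Fin n → ℕ} (hmu : mu ∈ strips lam) : Antitone mu := by
  have h := mem_strips.mp hmu
  have key : ∀ (d : ℕ) (i j : Fin n), (j : ℕ) = i + d → mu j ≤ mu i := by
    intro d
    induction d with
    | zero =>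
      intro i j hij
      have : i = j := Fin.ext (by omega)
      rw [this]
    | succ d ih =>
      intro i j hij
      have h1 : (i : ℕ) + 1 < n := by have := j.2; omega
      have h2 := ih ⟨(i : ℕ) + 1, h1⟩ j (by dsimp only; omega)
      have h3 := (h i).1
      rw [nxt, dif_pos h1] at h3
      have h4 := (h ⟨(i : ℕ) + 1, h1⟩).2
      omega
  intro i j hij
  exact key ((j : ℕ) - i) i j (by have : (i : ℕ) ≤ j := hij; omega)

/-- **(D2)** -/
theorem finrank_HW_le_gt (n N : ℕ) {lam : Fin n → ℕ} (hl : Antitone lam) :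
    finrank ℂ (T4.HW n (Fin N) lam) ≤ gt n N lam := by
  classical
  induction N generalizing lam with
  | zero =>
    rw [gt]
    split_ifs with h0
    · subst h0
      have h1 : T4.HW n (Fin 0) 0 ≤ (1 : Submodule ℂ (MvPolynomial (Fin n × Fin 0) ℂ)) := by
        intro f _
        rw [Submodule.mem_one]
        refine ⟨coeff 0 f, ?_⟩
        ext d
        have hd : d = 0 := by
          ext ⟨_, j⟩
          exact j.elim0
        rw [hd, algebraMap_eq, coeff_C, if_pos rfl]
      haveI : FiniteDimensional ℂ (1 : Submodule ℂ (MvPolynomial (Fin n × Fin 0) ℂ)) := by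
        rw [Submodule.one_eq_span]
        exact FiniteDimensional.span_singleton ℂ _
      refine (Submodule.finrank_mono h1).trans ?_
      rw [Submodule.one_eq_span]
      exact finrank_span_le_card ({1} : Set _) |>.trans (by simp)
    · have h1 : T4.HW n (Fin 0) lam = ⊥ := by
        rw [eq_bot_iff]
        intro f hf
        rw [Submodule.mem_bot]
        ext d
        rw [coeff_zero]
        by_contra hd
        apply h0
        funext i
        rw [← hf.1 d hd i]
        simp
      rw [h1, finrank_bot]
  | succ N ih =>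
    have h1 : finrank ℂ (T4.HW n (Fin (N + 1)) lam) ≤ finrank ℂ (T4.HW n (Option (Fin N)) lam) :=
      H129.finrank_mono (finSuccEquivLast (n := N)).toEmbedding lam
    refine h1.trans ?_
    rw [← HW_eq_T4]
    refine (finrank_branch hl).trans ?_
    rw [gt]
    refine Finset.sum_le_sum fun mu hmu => ?_
    rw [HW_eq_T4]
    exact ih (strips_antitone hmu)

end Vale.Agent.P181.H663
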